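import Vale.Agent.Lib.P302_h35.Cert

namespace Vale.Agent.Results.P302.A_gap361over300

open Vale.Agent.Lib.P302_h35 MaskTree

/-- The items, each as its integer size (capacity 1000000000) and its dual value (budget 300). -/
def items : List Item :=
  [(749206349,240), (743915343,240), (740740740,240), (499999999,150), (444444444,150), (433862433,135), (416931216,120), (369312169,108), (354232804,105), (342328042,102), (340740740,102), (333333333,100), (333333333,100), (315343915,96), (315343915,96), (291534391,90), (291534391,90), (289947089,90), (277777777,75), (132804232,30), (132275132,30), (129100529,30), (128042328,30), (126984126,30), (125396825,30), (123280423,30)]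

/-- A fractional solution: weights over 300 and configurations as lists of integer sizes. -/
def cols : List Col :=
  [(150,[749206349, 126984126, 123280423]), (150,[499999999, 499999999]), (33,[444444444, 444444444]), (18,[444444444, 416931216, 132804232]), (180,[369312169, 315343915, 315343915]), (150,[354232804, 354232804, 291534391]), (150,[342328042, 342328042, 315343915]), (90,[340740740, 340740740, 315343915]), (200,[333333333, 333333333, 333333333]), (57,[416931216, 289947089, 289947089]), (225,[416931216, 291534391, 291534391]), (120,[369312169, 340740740, 289947089]), (150,[444444444, 277777777, 277777777]), (66,[444444444, 289947089, 132804232, 132804232]), (150,[433862433, 433862433, 132275132]), (150,[740740740, 129100529, 129100529]), (150,[743915343, 128042328, 128042328]), (150,[740740740, 132275132, 126984126]), (150,[749206349, 125396825, 125396825]), (150,[743915343, 132804232, 123280423])]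

/-- Tables of residual item sets (masks) that do not fit, for 8, ..., 0 bins. -/
def tables : List MaskTree :=
  [(node (node (node (node leaf 16777214 leaf) 25165822 leaf) 33554430 (node (node leaf 50331646 leaf) 58720254 leaf)) 62914558 (node (node (node leaf 65011710 leaf) 66060286 leaf) 66584574 (node leaf 67108862 leaf))),
    (node (node (node (node (node (node leaf 4194300 leaf) 6291452 (node leaf 8388604 leaf)) 12582908 (node (node leaf 14680060 leaf) 15728636 leaf)) 16252924 (node (node (node leaf 16777212 leaf) 20971516 (node leaf 23068668 leaf)) 24117244 (node (node leaf 24641532 leaf) 25165820 leaf))) 27262972 (node (node (node (node leaf 28311548 leaf) 28835836 (node leaf 29360124 leaf)) 30408700 (node (node leaf 30932988 leaf) 31457276 leaf)) 31981564 (node (node (node leaf 32505852 leaf) 33030140 leaf) 37748732 (node (node leaf 39845884 leaf) 40894460 leaf)))) 41418748 (node (node (node (node (node leaf 41943036 leaf) 44040188 (node leaf 45088764 leaf)) 45613052 (node (node leaf 46137340 leaf) 47185916 leaf)) 47710204 (node (node (node leaf 48234492 leaf) 49283068 leaf) 49807356 (node (node leaf 52428796 leaf) 53477372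 leaf))) 54001660 (node (node (node (node leaf 54525948 leaf) 55574524 (node leaf 56098812 leaf)) 56623100 (node (node leaf 57671676 leaf) 58195964 leaf)) 60817404 (node (node (node leaf 61865980 leaf) 62390268 leaf) 63963132 (node (node leaf 64487420 leaf) 65535996 leaf))))),
    (node (node (node (node (node (node leaf 2097144 leaf) 3145720 (node leaf 3670008 leaf)) 4194296 (node (node leaf 5242872 leaf) 5767160 leaf)) 6291448 (node (node (node leaf 6815736 leaf) 7340024 (node leaf 7864312 leaf)) 9437176 (node (node leaf 9961464 leaf) 10485752 leaf))) 11010040 (node (node (node (node leaf 11534328 leaf) 12058616 (node leaf 13107192 leaf)) 13631480 (node (node leaf 14155768 leaf) 15204344 leaf)) 17825784 (node (node (node leaf 18350072 leaf) 18874360 (node leaf 19398648 leaf)) 19922936 (node (node leaf 20447224 leaf) 21495800 leaf)))) 22020088 (node (node (node (node (node leaf 22544376 leaf) 23592952 (node leaf 25690104 leaf)) 26214392 (node (node leaf 26738680 leaf) 27787256 leaf)) 29884408 (node (node (node leaf 34603000 leaf) 35127288 (node leaf 35651576 leaf)) 36175864 (node (node leaf 36700152 leaf) 37224440 leaf))) 38273016 (node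 (node (node (node leaf 38797304 leaf) 39321592 (node leaf 40370168 leaf)) 42991608 (node (node leaf 43515896 leaf) 44564472 leaf)) 46661624 (node (node (node leaf 51380216 leaf) 51904504 leaf) 52953080 (node (node leaf 55050232 leaf) 59244536 leaf))))),
    (node (node (node (node (node (node (node (node leaf 917488 leaf) 983024 leaf) 1032176 (node leaf 1044464 leaf)) 1047536 (node (node (node leaf 1048048 leaf) 1048304 leaf) 1048432 (node leaf 1441776 leaf))) 1507312 (node (node (node (node leaf 1556464 leaf) 1568752 leaf) 1571824 (node leaf 1572336 leaf)) 1572592 (node (node leaf 1572720 leaf) 2097072 (node leaf 2097104 leaf)))) 2097120 (node (node (node (node (node leaf 2490352 leaf) 2555888 leaf) 2605040 (node leaf 2617328 leaf)) 2620400 (node (node (node leaf 2620912 leaf) 2621168 leaf) 2621296 (node leaf 3145648 leaf))) 3145680 (node (node (node (node leaf 3145696 leaf) 3669936 leaf) 3669968 (node leaf 3669984 leaf)) 4194272 (node (node leaf 4587504 leaf) 4653040 (node leaf 4702192 leaf))))) 4714480 (node (node (node (node (node (node leaf 4717552 leaf) 4718064 leaf) 4718320 (node leaf 4718448 leaf)) 5242800 (node (node (node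 leaf 5242832 leaf) 5242848 leaf) 5767088 (node leaf 5767120 leaf))) 5767136 (node (node (node (node leaf 6291424 leaf) 6815664 leaf) 6815696 (node leaf 6815712 leaf)) 7340000 (node (node leaf 7864288 leaf) 8781808 (node leaf 8847344 leaf)))) 8896496 (node (node (node (node (node leaf 8908784 leaf) 8911856 leaf) 8912368 (node leaf 8912624 leaf)) 8912752 (node (node leaf 9437104 leaf) 9437136 (node leaf 9437152 leaf))) 9961392 (node (node (node (node leaf 9961424 leaf) 9961440 leaf) 10485728 (node leaf 11009968 leaf)) 11010000 (node (node leaf 11010016 leaf) 11534304 (node leaf 12058592 leaf)))))) 13107120 (node (node (node (node (node (node (node leaf 13107152 leaf) 13107168 leaf) 13631456 (node leaf 14155744 leaf)) 15204320 (node (node (node leaf 17170416 leaf) 17235952 leaf) 17285104 (node leaf 17297392 leaf))) 17300464 (node (node (node (node leaf 17300976 leaf) 17301232 leaf) 17301360 (node leaf 17825712 leaf)) 17825744 (node (node leaf 17825760 leaf) 18350000 (node leaf 18350032 leaf)))) 18350048 (node (node (node (node (node leaf 18874336 leaf) 19398576 leaf) 19398608 (node leaf 19398624 leaf)) 19922912 (node (node leaf 20447200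 leaf) 21495728 (node leaf 21495760 leaf))) 21495776 (node (node (node (node leaf 22020064 leaf) 22544352 leaf) 23592928 (node leaf 25690032 leaf)) 25690064 (node (node leaf 25690080 leaf) 26214368 (node leaf 26738656 leaf))))) 27787232 (node (node (node (node (node (node leaf 29884384 leaf) 33947632 leaf) 34013168 (node leaf 34062320 leaf)) 34074608 (node (node (node leaf 34077680 leaf) 34078192 leaf) 34078448 (node leaf 34078576 leaf))) 34602928 (node (node (node (node leaf 34602960 leaf) 34602976 leaf) 35127216 (node leaf 35127248 leaf)) 35127264 (node (node leaf 35651552 leaf) 36175792 (node leaf 36175824 leaf)))) 36175840 (node (node (node (node (node leaf 36700128 leaf) 37224416 leaf) 38272944 (node leaf 38272976 leaf)) 38272992 (node (node leaf 38797280 leaf) 39321568 (node leaf 40370144 leaf))) 42991584 (node (node (node (node leaf 43515872 leaf) 44564448 leaf) 46661600 (node leaf 51380192 leaf)) 51904480 (node (node leaf 52953056 leaf) 55050208 (node leaf 59244512 leaf))))))),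
    (node (node (node (node (node (node leaf 262080 leaf) 393120 leaf) 393152 (node leaf 458656 leaf)) 458688 (node (node leaf 507808 leaf) 520096 (node leaf 523104 leaf))) 523168 (node (node (node (node leaf 523616 leaf) 523680 leaf) 523872 (node leaf 523936 leaf)) 524064 (node (node leaf 1048256 leaf) 1048384 (node leaf 1048448 leaf)))) 1572544 (node (node (node (node (node leaf 1572672 leaf) 1572736 leaf) 2621120 (node leaf 2621248 leaf)) 2621312 (node (node leaf 4718272 leaf) 4718400 (node leaf 4718464 leaf))) 8912576 (node (node (node (node leaf 8912704 leaf) 8912768 leaf) 17301184 (node leaf 17301312 leaf)) 17301376 (node (node leaf 34078400 leaf) 34078528 (node leaf 34078592 leaf))))),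
    (node (node (node (node (node (node (node leaf 65408 leaf) 163712 leaf) 294784 (node (node leaf 785152 leaf) 785664 leaf)) 851584 (node (node (node leaf 851712 leaf) 900864 leaf) 913152 (node leaf 916224 leaf))) 949888 (node (node (node (node leaf 950016 leaf) 966400 leaf) 978688 (node (node leaf 1023744 leaf) 1309440 leaf)) 1309952 (node (node (node leaf 1375872 leaf) 1376000 leaf) 1425152 (node leaf 1437440 leaf)))) 1440512 (node (node (node (node (node leaf 1474176 leaf) 1474304 leaf) 1490688 (node (node leaf 1502976 leaf) 1548032 leaf)) 2358016 (node (node (node leaf 2358528 leaf) 2424448 leaf) 2424576 (node leaf 2473728 leaf))) 2486016 (node (node (node (node leaf 2489088 leaf) 2522752 leaf) 2522880 (node (node leaf 2539264 leaf) 2551552 leaf)) 2596608 (node (node (node leaf 4455168 leaf) 4455680 leaf) 4521600 (node leaf 4521728 leaf))))) 4570880 (node (node (node (node (node (node leaf 4583168 leaf) 4586240 leaf) 4619904 (node (node leaf 4620032 leaf) 4636416 leaf)) 4648704 (node (node (node leaf 4693760 leaf) 8649472 leaf) 8649984 (node leaf 8715904 leaf))) 8716032 (node (node (node (node leaf 8765184 leaf) 8777472 leaf)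 8780544 (node (node leaf 8814208 leaf) 8814336 leaf)) 8830720 (node (node (node leaf 8843008 leaf) 8888064 leaf) 17038080 (node leaf 17038592 leaf)))) 17104512 (node (node (node (node (node leaf 17104640 leaf) 17153792 leaf) 17166080 (node (node leaf 17169152 leaf) 17202816 leaf)) 17202944 (node (node (node leaf 17219328 leaf) 17231616 leaf) 17276672 (node leaf 33815296 leaf))) 33815808 (node (node (node (node leaf 33881728 leaf) 33881856 leaf) 33931008 (node (node leaf 33943296 leaf) 33946368 leaf)) 33980032 (node (node (node leaf 33980160 leaf) 33996544 leaf) 34008832 (node leaf 34053888 leaf)))))),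
    (node (node (node (node (node (node (node (node leaf 31488 leaf) 32000 leaf) 40704 (node (node leaf 139008 leaf) 270080 leaf)) 817664 (node (node (node leaf 818176 leaf) 826880 leaf) 830976 (node leaf 834048 leaf))) 834560 (node (node (node (node leaf 845312 leaf) 846336 leaf) 846848 (node leaf 849920 leaf)) 888320 (node (node (node leaf 891392 leaf) 891904 leaf) 925184 (node leaf 929280 leaf)))) 932352 (node (node (node (node (node leaf 932864 leaf) 943616 leaf) 944640 (node (node leaf 945152 leaf) 953856 leaf)) 956928 (node (node (node leaf 957440 leaf) 1341952 leaf) 1342464 (node leaf 1351168 leaf))) 1355264 (node (node (node (node leaf 1358336 leaf) 1358848 leaf) 1369600 (node leaf 1370624 leaf)) 1371136 (node (node (node leaf 1374208 leaf) 1412608 leaf) 1415680 (node leaf 1416192 leaf))))) 1449472 (node (node (node (node (node (node leaf 1453568 leaf) 1456640 leaf) 1457152 (node (node leaf 1467904 leaf) 1468928 leaf)) 1469440 (node (node (node leaf 1478144 leaf) 1481216 leaf) 1481728 (node leaf 2390528 leaf))) 2391040 (node (node (node (node leaf 2399744 leaf) 2403840 leaf) 2406912 (node leaf 2407424 leaf)) 2418176 (node (node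 (node leaf 2419200 leaf) 2419712 leaf) 2422784 (node leaf 2461184 leaf)))) 2464256 (node (node (node (node (node leaf 2464768 leaf) 2498048 leaf) 2502144 (node (node leaf 2505216 leaf) 2505728 leaf)) 2516480 (node (node (node leaf 2517504 leaf) 2518016 leaf) 2526720 (node leaf 2529792 leaf))) 2530304 (node (node (node (node leaf 4487680 leaf) 4488192 leaf) 4496896 (node leaf 4500992 leaf)) 4504064 (node (node (node leaf 4504576 leaf) 4515328 leaf) 4516352 (node leaf 4516864 leaf)))))) 4519936 (node (node (node (node (node (node (node leaf 4558336 leaf) 4561408 leaf) 4561920 (node (node leaf 4595200 leaf) 4599296 leaf)) 4602368 (node (node (node leaf 4602880 leaf) 4613632 leaf) 4614656 (node leaf 4615168 leaf))) 4623872 (node (node (node (node leaf 4626944 leaf) 4627456 leaf) 8681984 (node leaf 8682496 leaf)) 8691200 (node (node (node leaf 8695296 leaf) 8698368 leaf) 8698880 (node leaf 8709632 leaf)))) 8710656 (node (node (node (node (node leaf 8711168 leaf) 8714240 leaf) 8752640 (node (node leaf 8755712 leaf) 8756224 leaf)) 8789504 (node (node (node leaf 8793600 leaf) 8796672 leaf) 8797184 (node leaf 8807936 leaf))) 8808960 (node (node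 (node (node leaf 8809472 leaf) 8818176 leaf) 8821248 (node leaf 8821760 leaf)) 17070592 (node (node (node leaf 17071104 leaf) 17079808 leaf) 17083904 (node leaf 17086976 leaf))))) 17087488 (node (node (node (node (node (node leaf 17098240 leaf) 17099264 leaf) 17099776 (node (node leaf 17102848 leaf) 17141248 leaf)) 17144320 (node (node (node leaf 17144832 leaf) 17178112 leaf) 17182208 (node leaf 17185280 leaf))) 17185792 (node (node (node (node leaf 17196544 leaf) 17197568 leaf) 17198080 (node leaf 17206784 leaf)) 17209856 (node (node (node leaf 17210368 leaf) 33847808 leaf) 33848320 (node leaf 33857024 leaf)))) 33861120 (node (node (node (node (node leaf 33864192 leaf) 33864704 leaf) 33875456 (node leaf 33876480 leaf)) 33876992 (node (node (node leaf 33880064 leaf) 33918464 leaf) 33921536 (node leaf 33922048 leaf))) 33955328 (node (node (node (node leaf 33959424 leaf) 33962496 leaf) 33963008 (node leaf 33973760 leaf)) 33974784 (node (node (node leaf 33975296 leaf) 33984000 leaf) 33987072 (node leaf 33987584 leaf))))))),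
    (node (node (node (node (node (node leaf 811008 leaf) 820224 (node leaf 821248 leaf)) 827392 (node (node leaf 918528 leaf) 919552 leaf)) 925696 (node (node (node leaf 1335296 leaf) 1344512 leaf) 1345536 (node (node leaf 1351680 leaf) 1442816 leaf))) 1443840 (node (node (node (node leaf 1449984 leaf) 2383872 leaf) 2393088 (node (node leaf 2394112 leaf) 2400256 leaf)) 2491392 (node (node (node leaf 2492416 leaf) 2498560 leaf) 4481024 (node (node leaf 4490240 leaf) 4491264 leaf)))) 4497408 (node (node (node (node (node leaf 4588544 leaf) 4589568 (node leaf 4595712 leaf)) 8675328 (node (node leaf 8684544 leaf) 8685568 leaf)) 8691712 (node (node (node leaf 8782848 leaf) 8783872 leaf) 8790016 (node (node leaf 17063936 leaf) 17073152 leaf))) 17074176 (node (node (node (node leaf 17080320 leaf) 17171456 leaf) 17172480 (node (node leaf 17178624 leaf) 33841152 leaf)) 33850368 (node (node (node leaf 33851392 leaf) 33857536 leaf) 33948672 (node (node leaf 33949696 leaf) 33955840 leaf))))),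
    leaf]

theorem sum_cols : (cols.map Prod.fst).sum = 2639 := by decide +kernel

theorem result : ∃ I : List ℚ, (∀ a ∈ I, 0 < a ∧ a ≤ 1) ∧
    ((361/300 : ℝ)) ≤ (OPT I : ℝ) - LP I := by
  have h := gap_of_cert (L := 1000000000) (D := 300) (W := 300) (k := 9) (by norm_num) (by norm_num)
    items cols 67108863 (node leaf 67108863 leaf) tables (by decide +kernel)
    (by decide +kernel) (by decide +kernel) (by decide +kernel) (by decide +kernel)
    (by decide +kernel) (by decide +kernel)
  refine ⟨_, h.1, le_trans ?_ h.2⟩
  rw [sum_cols]
  norm_num

end Vale.Agent.Results.P302.A_gap361over300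

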